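import Crest.Agent.KM.Hfun
import Mathlib

-- ▼ part KM/Star
section

/-!
# Star level: the value `VV`, KKT certificate, star inequality
-/

namespace Crest.Agent.KM

open Finset

variable {ι : Type*}

/-- star function at time `t` -/
noncomputable def Vf (J : Finset ι) (w u f : ι → ℝ) (F p t : ℝ) : ℝ :=
  p * t + ∑ j ∈ J, w j * cc (u j) F (f j) t

/-- value of a star -/
noncomputable def VV (J : Finset ι) (w u f : ι → ℝ) (F p : ℝ) : ℝ :=
  sInf (Vf J w u f F p '' Set.Icc (0:ℝ) 1)

lemma cc_cont (u F f : ℝ) : Continuous (cc u F f) := by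
  by_cases h : u ≤ F - (1-2*ee)*min F f
  · have : cc u F f = fun t => u - t * max (u/2) (u - ee*min F f) := by
      funext t; exact cc_of_le h t
    rw [this]; fun_prop
  · push Not at h
    have : cc u F f = fun t => Bc F f (max t (ts u F (min F f)))
        + (max t (ts u F (min F f)) - t) * bc F f (max t (ts u F (min F f))) := by
      funext t; exact cc_of_gt h t
    rw [this]
    unfold Bc bc
    fun_prop

lemma Vf_cont (J : Finset ι) (w u f : ι → ℝ) (F p : ℝ) : Continuous (Vf J w u f F p) := by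
  unfold Vf
  refine Continuous.add (by fun_prop) ?_
  exact continuous_finsetSum _ fun j _ => continuous_const.mul (cc_cont _ _ _)

lemma VV_exists (J : Finset ι) (w u f : ι → ℝ) (F p : ℝ) :
    ∃ t, 0 ≤ t ∧ t ≤ 1 ∧ VV J w u f F p = Vf J w u f F p t := by
  have hc : IsCompact (Vf J w u f F p '' Set.Icc (0:ℝ) 1) :=
    isCompact_Icc.image (Vf_cont J w u f F p)
  have hne : (Vf J w u f F p '' Set.Icc (0:ℝ) 1).Nonempty :=
    ⟨_, ⟨0, ⟨le_rfl, zero_le_one⟩, rfl⟩⟩
  obtain ⟨t, ht, hte⟩ := hc.sInf_mem hne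
  exact ⟨t, ht.1, ht.2, hte.symm⟩

lemma VV_le (J : Finset ι) (w u f : ι → ℝ) (F p : ℝ) {t : ℝ} (h0 : 0 ≤ t) (h1 : t ≤ 1) :
    VV J w u f F p ≤ Vf J w u f F p t := by
  have hc : IsCompact (Vf J w u f F p '' Set.Icc (0:ℝ) 1) :=
    isCompact_Icc.image (Vf_cont J w u f F p)
  exact csInf_le hc.bddBelow ⟨t, ⟨h0, h1⟩, rfl⟩

lemma Vf_zero (J : Finset ι) (w u f : ι → ℝ) {F : ℝ} (p : ℝ) (hF : 0 ≤ F)
    (hf : ∀ j ∈ J, 0 ≤ f j) (hu : ∀ j ∈ J, u j ≤ F) :
    Vf J w u f F p 0 = ∑ j ∈ J, w j * u j := by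
  unfold Vf
  rw [mul_zero, zero_add]
  apply Finset.sum_congr rfl
  intro j hj
  rw [cc_zero (hf j hj) hF (hu j hj)]

lemma VV_le_sum (J : Finset ι) (w u f : ι → ℝ) {F : ℝ} (p : ℝ) (hF : 0 ≤ F)
    (hf : ∀ j ∈ J, 0 ≤ f j) (hu : ∀ j ∈ J, u j ≤ F) :
    VV J w u f F p ≤ ∑ j ∈ J, w j * u j := by
  rw [← Vf_zero J w u f p hF hf hu]
  exact VV_le J w u f F p le_rfl zero_le_one

/-- KKT: the slope sum at a minimiser in `(0,1]` is at least the price -/
lemma slope_ge {J : Finset ι} {w u f : ι → ℝ} {F p t : ℝ} (hF : 0 ≤ F)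
    (hw : ∀ j ∈ J, 0 ≤ w j) (hf : ∀ j ∈ J, 0 ≤ f j) (ht : 0 < t) (ht1 : t ≤ 1)
    (hmin : VV J w u f F p = Vf J w u f F p t) :
    p ≤ ∑ j ∈ J, w j * gg (u j) F (f j) t := by
  have hcl : IsClosed {s : ℝ | p ≤ ∑ j ∈ J, w j * gg (u j) F (f j) s} := by
    apply isClosed_le continuous_const
    exact continuous_finsetSum _ fun j _ => continuous_const.mul gg_cont
  have hsub : Set.Ico 0 t ⊆ {s : ℝ | p ≤ ∑ j ∈ J, w j * gg (u j) F (f j) s} := by
    intro s hs
    have h1 := VV_le J w u f F p hs.1 (hs.2.le.trans ht1)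
    rw [hmin] at h1
    unfold Vf at h1
    have h2 : ∑ j ∈ J, w j * cc (u j) F (f j) s ≤
        ∑ j ∈ J, w j * cc (u j) F (f j) t + (t - s) * ∑ j ∈ J, w j * gg (u j) F (f j) s := by
      rw [Finset.mul_sum, ← Finset.sum_add_distrib]
      apply Finset.sum_le_sum
      intro j hj
      have := mul_le_mul_of_nonneg_left (cc_sub (u := u j) (hf j hj) hF t s) (hw j hj)
      linarith
    have h3 : 0 < t - s := by linarith [hs.2]
    have h4 : (t - s) * p ≤ (t - s) * ∑ j ∈ J, w j * gg (u j) F (f j) s := by linarith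
    exact le_of_mul_le_mul_left h4 h3
  have := hcl.closure_subset_iff.mpr hsub
  rw [closure_Ico (ne_of_lt ht)] at this
  exact this ⟨ht.le, le_rfl⟩

lemma slope_le {J : Finset ι} {w u f : ι → ℝ} {F p t : ℝ} (hF : 0 ≤ F)
    (hw : ∀ j ∈ J, 0 ≤ w j) (hf : ∀ j ∈ J, 0 ≤ f j) (ht : 0 ≤ t) (ht1 : t < 1)
    (hmin : VV J w u f F p = Vf J w u f F p t) :
    ∑ j ∈ J, w j * gg (u j) F (f j) t ≤ p := by
  have hcl : IsClosed {s : ℝ | ∑ j ∈ J, w j * gg (u j) F (f j) s ≤ p} := by
    apply isClosed_le _ continuous_const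
    exact continuous_finsetSum _ fun j _ => continuous_const.mul gg_cont
  have hsub : Set.Ioc t 1 ⊆ {s : ℝ | ∑ j ∈ J, w j * gg (u j) F (f j) s ≤ p} := by
    intro s hs
    have h1 := VV_le J w u f F p (ht.trans hs.1.le) hs.2
    rw [hmin] at h1
    unfold Vf at h1
    have h2 : ∑ j ∈ J, w j * cc (u j) F (f j) s + (s - t) * ∑ j ∈ J, w j * gg (u j) F (f j) s ≤
        ∑ j ∈ J, w j * cc (u j) F (f j) t := by
      rw [Finset.mul_sum, ← Finset.sum_add_distrib]
      apply Finset.sum_le_sum
      intro j hj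
      have := mul_le_mul_of_nonneg_left (cc_sub (u := u j) (hf j hj) hF t s) (hw j hj)
      linarith
    have h3 : 0 < s - t := by linarith [hs.1]
    have h4 : (s - t) * ∑ j ∈ J, w j * gg (u j) F (f j) s ≤ (s - t) * p := by linarith
    exact le_of_mul_le_mul_left h4 h3
  have := hcl.closure_subset_iff.mpr hsub
  rw [closure_Ioc (ne_of_lt ht1)] at this
  exact this ⟨le_rfl, ht1.le⟩

/-- A certificate for a star (state `u, F`) with time `t`, prices `n`, clock `Θ`, gains `G`;
`σ` is the type of stations over which the neighbourhood averages are taken. -/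
structure Cert (σ : Type*) (J : Finset ι) (w u f d C : ι → ℝ) (F p : ℝ) where
  t : ℝ
  n : ι → ℝ
  Θ : ℝ → ℝ
  G : ι → ℝ → ℝ
  t_pos : 0 < t
  t_le : t ≤ 1
  val : VV J w u f F p = Vf J w u f F p t
  price : ∑ j ∈ J, w j * n j = p
  Θ_nonneg : ∀ F', 0 ≤ Θ F'
  Θ_le : ∀ F', Θ F' ≤ t
  R : ∀ j ∈ J, ∀ F' u', 0 ≤ F' → F' ≤ F → u' ≤ u j → u' ≤ F' →
    cc u' F' (f j) (Θ F') ≤ cc (u j) F (f j) t + (t - Θ F') * n j
  G_dead : ∀ j ∈ J, ∀ x, G j x ≤ u j
  G_alive : ∀ j ∈ J, ∀ x F', 0 ≤ F' → F' ≤ F → F' ≤ d j + x → rr (u j) (d j) x ≤ F' →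
    G j x ≤ cc (u j) F (f j) t + (t - Θ F') * n j + rr (u j) (d j) x
      - cc (rr (u j) (d j) x) F' (f j) (Θ F')
  G_avg : ∀ j ∈ J, ∀ (L : Finset σ) (x : σ → ℝ), (∀ l ∈ L, 0 ≤ x l) →
    ∑ l ∈ L, x l = L.card * C j → L.card * n j ≤ ∑ l ∈ L, G j (x l)

/-- certificate when the slopes at the minimiser sum to the price -/
theorem cert_of_eq (hR0 : R0Prop) (hL : LProp) {σ : Type*} {J : Finset ι}
    {w u f d C : ι → ℝ} {F p t : ℝ}
    (hF : 0 < F) (hd : ∀ j ∈ J, 0 ≤ d j) (hC : ∀ j ∈ J, 0 ≤ C j)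
    (hf : ∀ j ∈ J, f j = (11 * d j + 5 * C j)/8)
    (hu0 : ∀ j ∈ J, 0 ≤ u j) (huF : ∀ j ∈ J, u j ≤ F)
    (ht : 0 < t) (ht1 : t ≤ 1)
    (hmin : VV J w u f F p = Vf J w u f F p t)
    (hsum : ∑ j ∈ J, w j * gg (u j) F (f j) t = p) :
    Nonempty (Cert σ J w u f d C F p) := by
  have hf0 : ∀ j ∈ J, 0 ≤ f j := by
    intro j hj; rw [hf j hj]; have := hd j hj; have := hC j hj; positivity
  refine ⟨{ t := t, n := fun j => gg (u j) F (f j) t, Θ := fun F' => t * lam (F'/F),
            G := fun j x => GG (u j) F (f j) (d j) t x, t_pos := ht, t_le := ht1,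
            val := hmin, price := hsum, Θ_nonneg := ?_, Θ_le := ?_, R := ?_, G_dead := ?_,
            G_alive := ?_, G_avg := ?_ }⟩
  · intro F'; exact mul_nonneg ht.le (lam_nonneg _)
  · intro F'; exact mul_le_of_le_one_right ht.le (lam_le_one _)
  · intro j hj F' u' h0 h1 h2 h3
    exact cc_R hR0 hF h0 h1 (hf0 j hj) h2 h3 (huF j hj) ht.le ht1
  · intro j hj x
    exact GG_le_u hF (hf0 j hj) (huF j hj) ht.le
  · intro j hj x F' h0 h1 h2 h3
    exact GG_le_term hF h0 h1 h2 (hf0 j hj) h3 ht.le ht1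
  · intro j hj L x hx hs
    exact GG_avg hL L x hx hF (hd j hj) (hC j hj) hs (hf j hj) (hu0 j hj) (huF j hj) ht.le ht1

/-- the truncated slope sum at time one reaches the price -/
lemma exists_trunc {J : Finset ι} {w u f : ι → ℝ} {F p : ℝ} (hF : 0 < F) (hp : 0 < p)
    (hf : ∀ j ∈ J, 0 ≤ f j) (hu0 : ∀ j ∈ J, 0 ≤ u j) (huF : ∀ j ∈ J, u j ≤ F)
    (hge : p ≤ ∑ j ∈ J, w j * gg (u j) F (f j) 1) :
    ∃ y, 0 < y ∧ y ≤ F ∧ ∑ j ∈ J, w j * gg (min (u j) y) y (f j) 1 = p := by
  have he := ee_pos
  set S : ℝ → ℝ := fun y => ∑ j ∈ J, w j *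
    min (max ((min (u j) y)/2) (min (u j) y - ee*min y (f j))) (y - (1-ee) * min y (f j)) with hS
  have hSc : Continuous S := by
    rw [hS]
    exact continuous_finsetSum _ fun j _ => by fun_prop
  have hSg : ∀ y, 0 ≤ y → S y = ∑ j ∈ J, w j * gg (min (u j) y) y (f j) 1 := by
    intro y hy
    apply Finset.sum_congr rfl
    intro j hj
    rw [gg_one (hf j hj) hy (min_le_right _ _)]
  have hS0 : S 0 = 0 := by
    rw [hS]
    apply Finset.sum_eq_zero
    intro j hj
    rw [min_eq_right (hu0 j hj), min_eq_left (hf j hj)]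
    simp
  have hSF : p ≤ S F := by
    rw [hSg F hF.le]
    refine hge.trans (le_of_eq ?_)
    apply Finset.sum_congr rfl
    intro j hj
    rw [min_eq_left (huF j hj)]
  have := intermediate_value_Icc hF.le hSc.continuousOn
  obtain ⟨y, hy, hye⟩ := this ⟨by rw [hS0]; exact hp.le, hSF⟩
  have hy0 : 0 < y := by
    rcases eq_or_lt_of_le hy.1 with h | h
    · rw [← h, hS0] at hye; linarith
    · exact h
  exact ⟨y, hy0, hy.2, by rw [← hSg y hy.1]; exact hye⟩

/-- time-one comparison for the truncated state -/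
lemma trunc_cmp {u F r F' y f : ℝ} (hf : 0 ≤ f) (hy : 0 < y) (hyF' : y ≤ F') (hF'F : F' ≤ F)
    (hru : r ≤ u) :
    min (min u y / 2) (ee * min y f) + min r y - min (min r y / 2) (ee * min y f)
      ≤ min (u/2) (ee * min F f) + r - min (r/2) (ee * min F' f) := by
  have he := ee_pos
  have he' := ee_lt
  have h1 : min y f ≤ min F' f := min_le_min hyF' le_rfl
  have h2 : min F' f ≤ min F f := min_le_min hF'F le_rfl
  have h3 : min y f ≤ y := min_le_left _ _
  have h0 : 0 ≤ min y f := le_min hy.le hf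
  generalize min y f = a at *
  generalize min F' f = b at *
  generalize min F f = c at *
  have e1 : ee * a ≤ ee * b := mul_le_mul_of_nonneg_left h1 he.le
  have e2 : ee * b ≤ ee * c := mul_le_mul_of_nonneg_left h2 he.le
  have e3 : ee * a ≤ y / 2 := by nlinarith
  generalize ee * a = A at *
  generalize ee * b = B at *
  generalize ee * c = D at *
  -- now a purely linear statement with min
  rcases le_total u y with hu | hu
  · have hry : r ≤ y := hru.trans hu
    rw [min_eq_left hu, min_eq_left hry]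
    rcases le_total (u/2) A with a1 | a1 <;> rcases le_total (r/2) A with a2 | a2 <;>
      rcases le_total (r/2) B with a3 | a3 <;> rcases le_total (u/2) D with a4 | a4 <;>
      simp only [min_eq_left, min_eq_right, a1, a2, a3, a4] <;> linarith
  · rw [min_eq_right hu]
    rcases le_total r y with hry | hry
    · rw [min_eq_left hry]
      rcases le_total (y/2) A with a1 | a1 <;> rcases le_total (r/2) A with a2 | a2 <;>
        rcases le_total (r/2) B with a3 | a3 <;> rcases le_total (u/2) D with a4 | a4 <;>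
        simp only [min_eq_left, min_eq_right, a1, a2, a3, a4] <;> linarith
    · rw [min_eq_right hry]
      rcases le_total (y/2) A with a1 | a1 <;> 
        rcases le_total (r/2) B with a3 | a3 <;> rcases le_total (u/2) D with a4 | a4 <;>
        simp only [min_eq_left, min_eq_right, a1, a3, a4] <;> linarith

/-- certificate at time one -/
theorem cert_top (hR0 : R0Prop) (hL : LProp) {σ : Type*} {J : Finset ι}
    {w u f d C : ι → ℝ} {F p : ℝ}
    (hF : 0 < F) (hp : 0 < p) (hd : ∀ j ∈ J, 0 ≤ d j) (hC : ∀ j ∈ J, 0 ≤ C j)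
    (hf : ∀ j ∈ J, f j = (11 * d j + 5 * C j)/8)
    (hu0 : ∀ j ∈ J, 0 ≤ u j) (huF : ∀ j ∈ J, u j ≤ F)
    (hmin : VV J w u f F p = Vf J w u f F p 1)
    (hge : p ≤ ∑ j ∈ J, w j * gg (u j) F (f j) 1) :
    Nonempty (Cert σ J w u f d C F p) := by
  have hf0 : ∀ j ∈ J, 0 ≤ f j := by
    intro j hj; rw [hf j hj]; have := hd j hj; have := hC j hj; positivity
  have he := ee_pos
  obtain ⟨y, hy, hyF, hsum⟩ := exists_trunc hF hp hf0 hu0 huF hge
  refine ⟨{ t := 1, n := fun j => gg (min (u j) y) y (f j) 1, Θ := fun F' => 1 * lam (F'/y),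
            G := fun j x => GG (min (u j) y) y (f j) (d j) 1 x, t_pos := one_pos, t_le := le_rfl,
            val := hmin, price := hsum, Θ_nonneg := ?_, Θ_le := ?_, R := ?_, G_dead := ?_,
            G_alive := ?_, G_avg := ?_ }⟩
  · intro F'; exact mul_nonneg zero_le_one (lam_nonneg _)
  · intro F'; exact mul_le_of_le_one_right zero_le_one (lam_le_one _)
  · intro j hj F' u' h0 h1 h2 h3
    have hmono : cc (min (u j) y) y (f j) 1 ≤ cc (u j) F (f j) 1 := by
      rw [cc_one (hf0 j hj) hy.le (min_le_right _ _), cc_one (hf0 j hj) hF.le (huF j hj)]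
      apply min_le_min
      · have := min_le_left (u j) y; linarith
      · exact mul_le_mul_of_nonneg_left (min_le_min hyF le_rfl) he.le
    rcases le_total F' y with hFy | hFy
    · have := cc_R hR0 (t := 1) hy h0 hFy (hf0 j hj) (le_min h2 (h3.trans hFy)) h3
        (min_le_right (u j) y) zero_le_one le_rfl
      linarith
    · have hl : lam (F'/y) = 1 := lam_of_one_le (by rwa [one_le_div hy])
      rw [hl, mul_one, sub_self, zero_mul, add_zero,
        cc_one (hf0 j hj) h0 h3, cc_one (hf0 j hj) hF.le (huF j hj)]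
      apply min_le_min (by linarith)
      exact mul_le_mul_of_nonneg_left (min_le_min h1 le_rfl) he.le
  · intro j hj x
    exact (GG_le_u hy (hf0 j hj) (min_le_right _ _) zero_le_one).trans (min_le_left _ _)
  · intro j hj x F' h0 h1 h2 h3
    have hmono : cc (min (u j) y) y (f j) 1 ≤ cc (u j) F (f j) 1 := by
      rw [cc_one (hf0 j hj) hy.le (min_le_right _ _), cc_one (hf0 j hj) hF.le (huF j hj)]
      apply min_le_min
      · have := min_le_left (u j) y; linarith
      · exact mul_le_mul_of_nonneg_left (min_le_min hyF le_rfl) he.le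
    have hrr : rr (min (u j) y) (d j) x = min (rr (u j) (d j) x) y := by
      unfold rr; rw [min_assoc, min_comm y, ← min_assoc]
    rcases le_total F' y with hFy | hFy
    · have hr2 : rr (min (u j) y) (d j) x = rr (u j) (d j) x := by
        rw [hrr, min_eq_left (h3.trans hFy)]
      have := GG_le_term (u := min (u j) y) (d := d j) (x := x) (t := 1) hy h0 hFy h2
        (hf0 j hj) (by rw [hr2]; exact h3) zero_le_one le_rfl
      rw [hr2] at this
      linarith
    · have hl : lam (F'/y) = 1 := lam_of_one_le (by rwa [one_le_div hy])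
      have h5 := GG_le_term (u := min (u j) y) (F' := y) (d := d j) (x := x) (t := 1) hy hy.le
        le_rfl (hFy.trans h2) (hf0 j hj) (by rw [hrr]; exact min_le_right _ _) zero_le_one le_rfl
      rw [div_self hy.ne', lam_of_one_le le_rfl, hrr] at h5
      refine h5.trans ?_
      have h6 := trunc_cmp (hf0 j hj) hy hFy h1 (rr_le (u j) (d j) x)
      rw [hl, mul_one, sub_self, zero_mul, add_zero]
      rw [cc_one (hf0 j hj) hy.le (min_le_right _ _), cc_one (hf0 j hj) hy.le (min_le_right _ _),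
        cc_one (hf0 j hj) hF.le (huF j hj), cc_one (hf0 j hj) h0 h3]
      linarith
  · intro j hj L x hx hs
    exact GG_avg hL L x hx hy (hd j hj) (hC j hj) hs (hf j hj)
      (le_min (hu0 j hj) hy.le) (min_le_right _ _) zero_le_one le_rfl

/-- every alive star has a certificate -/
theorem cert_exists (hR0 : R0Prop) (hL : LProp) {σ : Type*} {J : Finset ι}
    {w u f d C : ι → ℝ} {F p : ℝ}
    (hF : 0 ≤ F) (hp : 0 < p) (hw : ∀ j ∈ J, 0 ≤ w j)
    (hd : ∀ j ∈ J, 0 ≤ d j) (hC : ∀ j ∈ J, 0 ≤ C j)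
    (hf : ∀ j ∈ J, f j = (11 * d j + 5 * C j)/8)
    (hu0 : ∀ j ∈ J, 0 ≤ u j) (huF : ∀ j ∈ J, u j ≤ F)
    (halive : VV J w u f F p < ∑ j ∈ J, w j * u j) :
    Nonempty (Cert σ J w u f d C F p) := by
  have hf0 : ∀ j ∈ J, 0 ≤ f j := by
    intro j hj; rw [hf j hj]; have := hd j hj; have := hC j hj; positivity
  obtain ⟨t, ht0, ht1, hmin⟩ := VV_exists J w u f F p
  have htpos : 0 < t := by
    rcases eq_or_lt_of_le ht0 with h | h
    · rw [← h, Vf_zero J w u f p hF hf0 huF] at hmin
      linarith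
    · exact h
  have hFpos : 0 < F := by
    rcases eq_or_lt_of_le hF with h | h
    · have h0 : ∑ j ∈ J, w j * u j = 0 := by
        apply Finset.sum_eq_zero
        intro j hj
        have : u j = 0 := le_antisymm (by rw [h]; exact huF j hj) (hu0 j hj)
        rw [this, mul_zero]
      have h1 := slope_ge hF hw hf0 htpos ht1 hmin
      have h2 : ∑ j ∈ J, w j * gg (u j) F (f j) t ≤ 0 := by
        apply Finset.sum_nonpos
        intro j hj
        have hu : u j = 0 := le_antisymm (by rw [h]; exact huF j hj) (hu0 j hj)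
        have hF0 : F = 0 := h.symm
        have : gg (u j) F (f j) t = 0 := by
          rw [gg_of_le, hu, hF0, min_eq_left (hf0 j hj)]
          · simp
          · rw [hu, hF0, min_eq_left (hf0 j hj)]; simp
        rw [this, mul_zero]
      linarith
    · exact h
  have hge := slope_ge hF hw hf0 htpos ht1 hmin
  rcases eq_or_lt_of_le ht1 with h | h
  · subst h
    exact cert_top hR0 hL hFpos hp hd hC hf hu0 huF hmin hge
  · have hle := slope_le hF hw hf0 ht0 h hmin
    exact cert_of_eq hR0 hL hFpos hd hC hf hu0 huF htpos ht1 hmin (le_antisymm hle hge)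

end Crest.Agent.KM
end

-- ▼ part KM/Descent
section

/-! # R310 (metric k-median), block DESC: exchange lemma, decoupling and bookkeeping of the
memoryless star potential.

Stars (facility copies) `i : σ`, clients `j : ι`, `d i j` the distance from star to client,
`N j` the finite set of copies serving client `j`, `w j ≥ 0` the weight of the client.
A state is an arbitrary vector `K : ι → ℝ` (current connection costs); after opening the copy `κ`
it becomes `min (K j) (d κ j)`.  The values of the star potentials before (`V0`) and after (`V1 κ`)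
the opening are abstract real numbers. -/

set_option autoImplicit false
set_option linter.unusedSectionVars false
set_option linter.unusedVariables false

open Finset

namespace Crest.Agent.KM

/-- Elementary identity behind the exchange: the linear gain of a dead star plus the drop of its
value is exactly the connection saving of the opened copy. -/
theorem pos_exchange (K a x : ℝ) :
    max (min a K - x) 0 + max (K - a) 0 - max (min K x - a) 0 = max (K - x) 0 := by
  rcases le_total a K with h1 | h1 <;> rcases le_total K x with h2 | h2 <;>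
    rcases le_total a x with h3 | h3 <;>
    simp only [min_eq_left, min_eq_right, h1, h2] <;>
    (try rw [max_eq_left (by linarith : (0:ℝ) ≤ K - a)]) <;>
    (try rw [max_eq_right (by linarith : K - a ≤ 0)]) <;>
    (try rw [max_eq_left (by linarith : (0:ℝ) ≤ K - x)]) <;>
    (try rw [max_eq_right (by linarith : K - x ≤ 0)]) <;>
    (try rw [max_eq_left (by linarith : (0:ℝ) ≤ a - x)]) <;>
    (try rw [max_eq_right (by linarith : a - x ≤ 0)]) <;>
    (try rw [max_eq_left (by linarith : (0:ℝ) ≤ x - a)]) <;>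
    (try rw [max_eq_right (by linarith : x - a ≤ 0)]) <;> linarith

theorem min_drop (K a x : ℝ) :
    min a K - min a (min K x) = max (min a K - x) 0 := by
  rw [← min_assoc]
  rcases le_total (min a K) x with h | h
  · rw [min_eq_left h, max_eq_right (by linarith)]; ring
  · rw [min_eq_right h, max_eq_left (by linarith)]

section

variable {ι σ : Type*} [Fintype ι] [Fintype σ] [DecidableEq σ]

/-- The trivial value of a star: the total saving of its clients. -/
noncomputable def uval (d : σ → ι → ℝ) (w : ι → ℝ) (N : ι → Finset σ) (K : ι → ℝ) (i : σ) : ℝ :=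
  ∑ j, if i ∈ N j then w j * max (K j - d i j) 0 else 0

/-- The potential of a state with `n` opened facilities. -/
noncomputable def Phi (d : σ → ι → ℝ) (w : ι → ℝ) (N : ι → Finset σ) (M lam : ℝ)
    (n : ℝ) (K : ι → ℝ) (V : σ → ℝ) : ℝ :=
  lam * n + (1 / M) * ∑ i, ((∑ j, if i ∈ N j then w j * min (d i j) (K j) else 0) + V i)

/-- **Exchange lemma (general form with errors).**  `A` is the set of copies among which the opened
copy is drawn.  Every copy in `A` satisfies its star inequality (with its own price `≥ lam`); for the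
other copies the drop plus the linear gain pays the connection saving of the opened copy up to an
error `err κ i`. -/
theorem exchange_err (d : σ → ι → ℝ) (w : ι → ℝ) (hw : ∀ j, 0 ≤ w j) (N : ι → Finset σ)
    (M lam : ℝ) (hM : 0 < M) (n : ℝ) (K : ι → ℝ) (V0 : σ → ℝ) (V1 : σ → σ → ℝ)
    (A : Finset σ) (err : σ → σ → ℝ) (dfc : σ → ℝ)
    (hout : ∀ i, i ∉ A → ∀ κ ∈ A,
      (∑ j, if i ∈ N j ∧ κ ∈ N j then w j * max (K j - d κ j) 0 else 0) - err κ i ≤
      (∑ j, if i ∈ N j then w j * max (min (d i j) (K j) - d κ j) 0 else 0) + (V0 i - V1 κ i))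
    (hstar : ∀ i ∈ A, (lam - dfc i) * M ≤ (∑ κ ∈ A, (V0 i - V1 κ i)) +
      ∑ j, if i ∈ N j then
        w j * ((∑ κ ∈ A, if κ ∈ N j then max (min (d κ j) (K j) - d i j) 0 else 0) +
          ((N j \ A).card : ℝ) * max (K j - d i j) 0) else 0) :
    ∑ κ ∈ A, (Phi d w N M lam (n + 1) (fun j => min (K j) (d κ j)) (V1 κ)
      - Phi d w N M lam n K V0) ≤
      (∑ i ∈ A, dfc i) + (1 / M) * ∑ κ ∈ A, ∑ i ∈ Aᶜ, err κ i := by
  classical
  -- the drop of one pair
  set G : σ → σ → ℝ := fun κ i =>
    (∑ j, if i ∈ N j then w j * max (min (d i j) (K j) - d κ j) 0 else 0) + (V0 i - V1 κ i)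
    with hG
  have hstep : ∀ κ, Phi d w N M lam (n + 1) (fun j => min (K j) (d κ j)) (V1 κ)
      - Phi d w N M lam n K V0 = lam - (1 / M) * ∑ i, G κ i := by
    intro κ
    unfold Phi
    have : ∑ i, G κ i = (∑ i, ((∑ j, if i ∈ N j then w j * min (d i j) (K j) else 0) + V0 i)) -
        ∑ i, ((∑ j, if i ∈ N j then w j * min (d i j) (min (K j) (d κ j)) else 0) + V1 κ i) := by
      rw [← Finset.sum_sub_distrib]
      refine Finset.sum_congr rfl fun i _ => ?_
      simp only [hG]
      have : (∑ j, if i ∈ N j then w j * max (min (d i j) (K j) - d κ j) 0 else 0) =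
          (∑ j, if i ∈ N j then w j * min (d i j) (K j) else 0) -
          (∑ j, if i ∈ N j then w j * min (d i j) (min (K j) (d κ j)) else 0) := by
        rw [← Finset.sum_sub_distrib]
        refine Finset.sum_congr rfl fun j _ => ?_
        by_cases h : i ∈ N j
        · simp only [h, if_true]
          rw [← mul_sub, min_drop]
        · simp [h]
      rw [this]; ring
    rw [this]; ring
  have key : lam * M * (A.card : ℝ) ≤ (∑ κ ∈ A, ∑ i, G κ i) + (M * (∑ i ∈ A, dfc i) +
      ∑ κ ∈ A, ∑ i ∈ Aᶜ, err κ i) := by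
    have h1 : lam * M * (A.card : ℝ) - M * (∑ i ∈ A, dfc i) ≤
      ∑ i ∈ A, ((∑ κ ∈ A, (V0 i - V1 κ i)) +
      ∑ j, if i ∈ N j then
        w j * ((∑ κ ∈ A, if κ ∈ N j then max (min (d κ j) (K j) - d i j) 0 else 0) +
          ((N j \ A).card : ℝ) * max (K j - d i j) 0) else 0) := by
      have := Finset.sum_le_sum hstar
      refine le_trans (le_of_eq ?_) this
      rw [← Finset.sum_mul, Finset.sum_sub_distrib, Finset.sum_const, nsmul_eq_mul]
      ring
    have h1' : lam * M * (A.card : ℝ) ≤ M * (∑ i ∈ A, dfc i) +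
      ∑ i ∈ A, ((∑ κ ∈ A, (V0 i - V1 κ i)) +
      ∑ j, if i ∈ N j then
        w j * ((∑ κ ∈ A, if κ ∈ N j then max (min (d κ j) (K j) - d i j) 0 else 0) +
          ((N j \ A).card : ℝ) * max (K j - d i j) 0) else 0) := by linarith
    refine h1'.trans ?_
    -- split the right hand side
    have h2 : ∑ κ ∈ A, ∑ i, G κ i = (∑ κ ∈ A, ∑ i ∈ A, G κ i) + ∑ κ ∈ A, ∑ i ∈ Aᶜ, G κ i := by
      rw [← Finset.sum_add_distrib]
      refine Finset.sum_congr rfl fun κ _ => ?_
      rw [Finset.sum_add_sum_compl]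
    -- alive part
    have h3 : ∑ i ∈ A, ((∑ κ ∈ A, (V0 i - V1 κ i)) + ∑ j, if i ∈ N j then
        w j * (∑ κ ∈ A, if κ ∈ N j then max (min (d κ j) (K j) - d i j) 0 else 0) else 0)
        ≤ ∑ κ ∈ A, ∑ i ∈ A, G κ i := by
      have e1 : ∑ κ ∈ A, ∑ i ∈ A, G κ i =
          (∑ i ∈ A, ∑ κ ∈ A, (V0 i - V1 κ i)) +
          ∑ i ∈ A, ∑ κ ∈ A, ∑ j,
            if κ ∈ N j then w j * max (min (d κ j) (K j) - d i j) 0 else 0 := by
        simp only [hG]
        rw [Finset.sum_congr rfl fun κ _ => Finset.sum_add_distrib, Finset.sum_add_distrib,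
          add_comm]
        congr 1
        exact Finset.sum_comm
      rw [e1, Finset.sum_add_distrib]
      gcongr with i hi
      rw [Finset.sum_comm]
      refine Finset.sum_le_sum fun j _ => ?_
      by_cases h : i ∈ N j
      · simp only [h, if_true]
        rw [Finset.mul_sum]
        refine Finset.sum_le_sum fun κ _ => ?_
        split_ifs
        · exact le_rfl
        · simp
      · simp only [h, if_false]
        refine Finset.sum_nonneg fun κ _ => ?_
        split_ifs
        · exact mul_nonneg (hw j) (le_max_right _ _)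
        · exact le_rfl
    -- dead part
    have h4 : ∑ i ∈ A, (∑ j, if i ∈ N j then
        w j * (((N j \ A).card : ℝ) * max (K j - d i j) 0) else 0)
        ≤ (∑ κ ∈ A, ∑ i ∈ Aᶜ, G κ i) + ∑ κ ∈ A, ∑ i ∈ Aᶜ, err κ i := by
      rw [← Finset.sum_add_distrib]
      refine Finset.sum_le_sum fun κ hκ => ?_
      rw [← Finset.sum_add_distrib]
      have e1 : ∀ i ∈ Aᶜ,
          (∑ j, if i ∈ N j ∧ κ ∈ N j then w j * max (K j - d κ j) 0 else 0) ≤
            G κ i + err κ i := by
        intro i hi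
        have hi' : i ∉ A := by simpa using hi
        have h0 := hout i hi' κ hκ
        simp only [hG]
        linarith
      refine le_trans ?_ (Finset.sum_le_sum e1)
      rw [Finset.sum_comm]
      refine Finset.sum_le_sum fun j _ => ?_
      by_cases h : κ ∈ N j
      · simp only [h, if_true, and_true]
        have e2 : ∑ i ∈ Aᶜ, (if i ∈ N j then w j * max (K j - d κ j) 0 else 0) =
            ((N j \ A).card : ℝ) * (w j * max (K j - d κ j) 0) := by
          rw [← Finset.sum_filter, Finset.sum_const, nsmul_eq_mul]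
          congr 2
          apply congrArg
          ext x
          simp only [mem_filter, mem_compl, mem_sdiff]
          tauto
        rw [e2]
        apply le_of_eq; ring
      · simp [h]
    rw [h2]
    refine le_trans (add_le_add_right (a := M * (∑ i ∈ A, dfc i))
      (le_trans (le_of_eq ?_) (add_le_add h3 h4))) (le_of_eq ?_)
    · rw [← Finset.sum_add_distrib]
      refine Finset.sum_congr rfl fun i _ => ?_
      rw [add_assoc, ← Finset.sum_add_distrib]
      congr 1
      refine Finset.sum_congr rfl fun j _ => ?_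
      split_ifs
      · ring
      · ring
    · ring
  rw [Finset.sum_congr rfl fun κ _ => hstep κ, Finset.sum_sub_distrib, Finset.sum_const,
    nsmul_eq_mul, ← Finset.mul_sum]
  have h5 : (A.card : ℝ) * lam = (1 / M) * (lam * M * (A.card : ℝ)) := by
    field_simp
  have h6 : (∑ i ∈ A, dfc i) = (1 / M) * (M * (∑ i ∈ A, dfc i)) := by field_simp
  rw [h5, sub_le_iff_le_add, h6, ← mul_add, ← mul_add]
  refine mul_le_mul_of_nonneg_left ?_ (by positivity)
  linarith

/-- A dead copy pays exactly the connection saving of the opened copy. -/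
theorem dead_pays (d : σ → ι → ℝ) (w : ι → ℝ) (hw : ∀ j, 0 ≤ w j) (N : ι → Finset σ)
    (K : ι → ℝ) (V0 V1 : ℝ) (i κ : σ)
    (h0 : uval d w N K i ≤ V0) (h1 : V1 ≤ uval d w N (fun j => min (K j) (d κ j)) i) :
    (∑ j, if i ∈ N j ∧ κ ∈ N j then w j * max (K j - d κ j) 0 else 0) ≤
      (∑ j, if i ∈ N j then w j * max (min (d i j) (K j) - d κ j) 0 else 0) + (V0 - V1) := by
  have h2 : (∑ j, if i ∈ N j ∧ κ ∈ N j then w j * max (K j - d κ j) 0 else 0) ≤
      ∑ j, if i ∈ N j then w j * max (K j - d κ j) 0 else 0 := by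
    refine Finset.sum_le_sum fun j _ => ?_
    by_cases hi : i ∈ N j <;> by_cases hk : κ ∈ N j <;> simp [hi, hk]
    exact mul_nonneg (hw j) (le_max_right _ _)
  have h3 : (∑ j, if i ∈ N j then w j * max (K j - d κ j) 0 else 0) =
      (∑ j, if i ∈ N j then w j * max (min (d i j) (K j) - d κ j) 0 else 0) +
      (uval d w N K i - uval d w N (fun j => min (K j) (d κ j)) i) := by
    unfold uval
    rw [← Finset.sum_sub_distrib, ← Finset.sum_add_distrib]
    refine Finset.sum_congr rfl fun j _ => ?_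
    by_cases h : i ∈ N j
    · simp only [h, if_true]
      rw [← pos_exchange (K j) (d i j) (d κ j)]; ring
    · simp [h]
  linarith


/-- A dead copy that is nevertheless opened satisfies its star inequality with its own value
`uval` in place of the price. -/
theorem dead_star (d : σ → ι → ℝ) (w : ι → ℝ) (hw : ∀ j, 0 ≤ w j) (N : ι → Finset σ)
    (M : ℝ) (K : ι → ℝ) (A : Finset σ) (i : σ) (V0 : ℝ) (V1 : σ → ℝ)
    (hcard : ∀ j, i ∈ N j → ((N j).card : ℝ) = M)
    (h0 : uval d w N K i ≤ V0)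
    (h1 : ∀ κ ∈ A, V1 κ ≤ uval d w N (fun j => min (K j) (d κ j)) i) :
    uval d w N K i * M ≤ (∑ κ ∈ A, (V0 - V1 κ)) +
      ∑ j, if i ∈ N j then
        w j * ((∑ κ ∈ A, if κ ∈ N j then max (min (d κ j) (K j) - d i j) 0 else 0) +
          ((N j \ A).card : ℝ) * max (K j - d i j) 0) else 0 := by
  classical
  have h2 : (∑ κ ∈ A, (uval d w N K i - uval d w N (fun j => min (K j) (d κ j)) i)) ≤
      ∑ κ ∈ A, (V0 - V1 κ) :=
    Finset.sum_le_sum fun κ hκ => by have := h1 κ hκ; linarith
  refine le_trans ?_ (add_le_add h2 le_rfl)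
  have h3 : (∑ j, if i ∈ N j then w j * ((A.filter (fun κ => κ ∈ N j)).card : ℝ) *
        max (K j - d i j) 0 else 0) ≤
      (∑ κ ∈ A, (uval d w N K i - uval d w N (fun j => min (K j) (d κ j)) i)) +
      ∑ j, if i ∈ N j then
        w j * (∑ κ ∈ A, if κ ∈ N j then max (min (d κ j) (K j) - d i j) 0 else 0) else 0 := by
    unfold uval
    rw [Finset.sum_congr rfl fun κ _ => (Finset.sum_sub_distrib _ _).symm, Finset.sum_comm,
      ← Finset.sum_add_distrib]
    refine Finset.sum_le_sum fun j _ => ?_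
    by_cases h : i ∈ N j
    · simp only [h, if_true]
      rw [Finset.mul_sum, ← Finset.sum_add_distrib, mul_assoc, ← nsmul_eq_mul, ← Finset.sum_const,
        Finset.sum_filter, Finset.mul_sum]
      refine Finset.sum_le_sum fun κ _ => ?_
      have e0 : max (min (K j) (d κ j) - d i j) 0 ≤ max (K j - d i j) 0 :=
        max_le_max (by linarith [min_le_left (K j) (d κ j)]) le_rfl
      by_cases hk : κ ∈ N j
      · simp only [hk, if_true]
        rw [min_comm (d κ j) (K j)]
        apply le_of_eq; ring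
      · simp only [hk, if_false]
        have := mul_le_mul_of_nonneg_left e0 (hw j)
        linarith
    · simp [h]
  have h4 : uval d w N K i * M = (∑ j, if i ∈ N j then w j *
        ((A.filter (fun κ => κ ∈ N j)).card : ℝ) * max (K j - d i j) 0 else 0) +
      ∑ j, if i ∈ N j then w j * (((N j \ A).card : ℝ) * max (K j - d i j) 0) else 0 := by
    unfold uval
    rw [Finset.sum_mul, ← Finset.sum_add_distrib]
    refine Finset.sum_congr rfl fun j _ => ?_
    by_cases h : i ∈ N j
    · simp only [h, if_true]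
      have e1 : (A.filter (fun κ => κ ∈ N j)) = N j ∩ A := by
        ext x; simp [and_comm]
      have e2 : ((N j ∩ A).card : ℝ) + ((N j \ A).card : ℝ) = M := by
        rw [← hcard j h]
        exact_mod_cast Finset.card_inter_add_card_sdiff (N j) A
      rw [e1, ← e2]; ring
    · simp [h]
  rw [h4]
  refine le_trans (add_le_add h3 le_rfl) (le_of_eq ?_)
  rw [add_assoc, ← Finset.sum_add_distrib]
  congr 1
  refine Finset.sum_congr rfl fun j _ => ?_
  split_ifs
  · ring
  · ring

/-- **Exchange lemma, superset form** (used to open the copies alive at a lower price): `A` contains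
the alive copies; every dead copy of `A` contributes its price minus its value. -/
theorem exchange_superset (d : σ → ι → ℝ) (w : ι → ℝ) (hw : ∀ j, 0 ≤ w j) (N : ι → Finset σ)
    (M lam : ℝ) (hM : 0 < M) (hcard : ∀ j, ((N j).card : ℝ) = M)
    (n : ℝ) (K : ι → ℝ) (V0 : σ → ℝ) (V1 : σ → σ → ℝ)
    (A Al : Finset σ) (hAl : Al ⊆ A)
    (hdead0 : ∀ i, i ∉ Al → uval d w N K i ≤ V0 i)
    (hdead1 : ∀ i, i ∉ Al → ∀ κ ∈ A, V1 κ i ≤ uval d w N (fun j => min (K j) (d κ j)) i)
    (hstar : ∀ i ∈ Al, lam * M ≤ (∑ κ ∈ A, (V0 i - V1 κ i)) +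
      ∑ j, if i ∈ N j then
        w j * ((∑ κ ∈ A, if κ ∈ N j then max (min (d κ j) (K j) - d i j) 0 else 0) +
          ((N j \ A).card : ℝ) * max (K j - d i j) 0) else 0) :
    ∑ κ ∈ A, (Phi d w N M lam (n + 1) (fun j => min (K j) (d κ j)) (V1 κ)
      - Phi d w N M lam n K V0) ≤ ∑ i ∈ A \ Al, (lam - uval d w N K i) := by
  classical
  refine (exchange_err d w hw N M lam hM n K V0 V1 A (fun _ _ => 0)
    (fun i => if i ∈ Al then 0 else lam - uval d w N K i) ?_ ?_).trans ?_
  · intro i hi κ hκ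
    have hi' : i ∉ Al := fun h => hi (hAl h)
    have := dead_pays d w hw N K (V0 i) (V1 κ i) i κ (hdead0 i hi') (hdead1 i hi' κ hκ)
    linarith
  · intro i hi
    by_cases h : i ∈ Al
    · simpa [h] using hstar i h
    · simp only [h, if_false]
      have := dead_star d w hw N M K A i (V0 i) (fun κ => V1 κ i) (fun j _ => hcard j)
        (hdead0 i h) (fun κ hκ => hdead1 i h κ hκ)
      calc (lam - (lam - uval d w N K i)) * M = uval d w N K i * M := by ring
        _ ≤ _ := this
  · have e1 : ∑ i ∈ A, (if i ∈ Al then 0 else lam - uval d w N K i) =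
        ∑ i ∈ A \ Al, (lam - uval d w N K i) := by
      rw [Finset.sdiff_eq_filter, Finset.sum_filter]
      refine Finset.sum_congr rfl fun i _ => ?_
      by_cases h : i ∈ Al <;> simp [h]
    rw [e1]; simp







end

end Crest.Agent.KM
end

-- ▼ part KM/Pot

/-!
# The concrete star potential of a fractional solution made of equal copies

`σ` = copies of facilities (mass `1/M` each), `ι` = clients, `N j` = the `M` copies serving `j`.
-/

set_option autoImplicit false

open Finset

namespace Crest.Agent.KM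

/-! ## More facts on the client function -/

lemma gg_zero_le {u F f : ℝ} (hu : 0 ≤ u) (hf : 0 ≤ f) (hF : 0 ≤ F) (huF : u ≤ F) :
    gg u F f 0 ≤ u := by
  have he := ee_pos
  have hm0 : 0 ≤ min F f := le_min hF hf
  by_cases h : u ≤ F - (1-2*ee)*min F f
  · rw [gg_of_le h]
    apply max_le
    · linarith
    · nlinarith
  · push Not at h
    obtain ⟨h0, h1, h2⟩ := ts_spec (le_min hF hf) huF h
    rw [gg_of_gt h, max_eq_right h0]
    have h3 : 0 ≤ ts u F (min F f) * (Real.exp (-(ts u F (min F f))) * min F f) :=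
      mul_nonneg h0 (mul_nonneg (Real.exp_pos _).le hm0)
    unfold bc
    linarith

lemma cc_ge {u F f t : ℝ} (hu : 0 ≤ u) (hf : 0 ≤ f) (hF : 0 ≤ F) (huF : u ≤ F) (ht : 0 ≤ t) :
    (1 - t) * u ≤ cc u F f t := by
  have h := cc_sub (u := u) hf hF t 0
  rw [cc_zero hf hF huF] at h
  have := mul_le_mul_of_nonneg_left (gg_zero_le hu hf hF huF) ht
  linarith

lemma VV_ge {ι : Type*} (J : Finset ι) (w u f : ι → ℝ) {F p : ℝ} (hF : 0 ≤ F)
    (hw : ∀ j ∈ J, 0 ≤ w j)
    (hf : ∀ j ∈ J, 0 ≤ f j) (hu0 : ∀ j ∈ J, 0 ≤ u j) (hu : ∀ j ∈ J, u j ≤ F) :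
    min p (∑ j ∈ J, w j * u j) ≤ VV J w u f F p := by
  obtain ⟨t, h0, h1, he⟩ := VV_exists J w u f F p
  rw [he]
  unfold Vf
  have h2 : (1 - t) * ∑ j ∈ J, w j * u j ≤ ∑ j ∈ J, w j * cc (u j) F (f j) t := by
    rw [Finset.mul_sum]
    apply Finset.sum_le_sum
    intro j hj
    have := mul_le_mul_of_nonneg_left (cc_ge (hu0 j hj) (hf j hj) hF (hu j hj) h0) (hw j hj)
    linarith
  have h3 := mul_le_mul_of_nonneg_left (min_le_left p (∑ j ∈ J, w j * u j)) h0
  have h4 := mul_le_mul_of_nonneg_left (min_le_right p (∑ j ∈ J, w j * u j))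
    (show 0 ≤ 1 - t by linarith)
  linarith

lemma VV_mono_p {ι : Type*} (J : Finset ι) (w u f : ι → ℝ) (F : ℝ) {p q : ℝ} (hpq : p ≤ q) :
    VV J w u f F p ≤ VV J w u f F q := by
  obtain ⟨t, h0, h1, he⟩ := VV_exists J w u f F q
  rw [he]
  refine (VV_le J w u f F p h0 h1).trans ?_
  unfold Vf
  have := mul_le_mul_of_nonneg_right hpq h0
  linarith


lemma VV_concave_p {ι : Type*} (J : Finset ι) (w u f : ι → ℝ) (F : ℝ) (p q a b : ℝ)
    (ha : 0 ≤ a) (hb : 0 ≤ b) (hab : a + b = 1) :
    a * VV J w u f F p + b * VV J w u f F q ≤ VV J w u f F (a * p + b * q) := by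
  obtain ⟨t, h0, h1, he⟩ := VV_exists J w u f F (a * p + b * q)
  rw [he]
  have h2 := mul_le_mul_of_nonneg_left (VV_le J w u f F p h0 h1) ha
  have h3 := mul_le_mul_of_nonneg_left (VV_le J w u f F q h0 h1) hb
  unfold Vf at *
  have : (∑ j ∈ J, w j * cc (u j) F (f j) t) =
    a * (∑ j ∈ J, w j * cc (u j) F (f j) t) + b * (∑ j ∈ J, w j * cc (u j) F (f j) t) := by
    rw [← add_mul, hab, one_mul]
  rw [this]
  linarith

lemma VV_nonneg {ι : Type*} (J : Finset ι) (w u f : ι → ℝ) {F p : ℝ} (hp : 0 ≤ p) (hF : 0 ≤ F)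
    (hw : ∀ j ∈ J, 0 ≤ w j)
    (hf : ∀ j ∈ J, 0 ≤ f j) (hu0 : ∀ j ∈ J, 0 ≤ u j) (hu : ∀ j ∈ J, u j ≤ F) :
    0 ≤ VV J w u f F p := by
  refine le_trans (le_min hp ?_) (VV_ge J w u f hF hw hf hu0 hu)
  exact Finset.sum_nonneg fun j hj => mul_nonneg (hw j hj) (hu0 j hj)

/-! ## Instances -/

/-- A fractional solution made of copies of mass `1/M`. -/
structure FracInst (ι σ : Type) [Fintype ι] [Fintype σ] [DecidableEq σ] where
  d : σ → ι → ℝ
  D : σ → σ → ℝ
  w : ι → ℝ
  N : ι → Finset σ
  M : ℕ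
  M_pos : 0 < M
  card_N : ∀ j, (N j).card = M
  w_nonneg : ∀ j, 0 ≤ w j
  d_nonneg : ∀ i j, 0 ≤ d i j
  D_nonneg : ∀ i κ, 0 ≤ D κ i
  /-- `D κ i ≤ d κ j + d i j` -/
  tri1 : ∀ i κ j, D κ i ≤ d i j + d κ j
  /-- `d κ j ≤ d i j + D κ i` -/
  tri2 : ∀ i κ j, d κ j ≤ d i j + D κ i

namespace FracInst

variable {ι σ : Type} [Fintype ι] [Fintype σ] [DecidableEq σ] (I : FracInst ι σ)

/-- average connection cost -/
noncomputable def C (j : ι) : ℝ := (1 / (I.M:ℝ)) * ∑ i ∈ I.N j, I.d i j

noncomputable def key (i : σ) (j : ι) : ℝ := (11 * I.d i j + 5 * I.C j) / 8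

/-- clients of the star `i` -/
noncomputable def J (i : σ) : Finset ι := Finset.univ.filter fun j => i ∈ I.N j

/-- a state: current client costs and star distances -/
structure State where
  K : ι → ℝ
  F : σ → ℝ
  K_nonneg : ∀ j, 0 ≤ K j
  F_nonneg : ∀ i, 0 ≤ F i
  K_le : ∀ i j, K j ≤ I.d i j + F i

variable {I}

/-- residual of client `j` in star `i` -/
noncomputable def State.u (S : I.State) (i : σ) (j : ι) : ℝ := max (S.K j - I.d i j) 0

noncomputable def State.V (S : I.State) (p : ℝ) (i : σ) : ℝ :=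
  VV (I.J i) I.w (S.u i) (I.key i) (S.F i) p

/-- total residual of star `i` -/
noncomputable def State.U (S : I.State) (i : σ) : ℝ := ∑ j ∈ I.J i, I.w j * S.u i j

/-- open the copy `κ` -/
noncomputable def State.step (S : I.State) (κ : σ) : I.State where
  K := fun j => min (S.K j) (I.d κ j)
  F := fun i => min (S.F i) (I.D κ i)
  K_nonneg := fun j => le_min (S.K_nonneg j) (I.d_nonneg κ j)
  F_nonneg := fun i => le_min (S.F_nonneg i) (I.D_nonneg i κ)
  K_le := by
    intro i j
    rcases le_total (S.F i) (I.D κ i) with h | h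
    · rw [min_eq_left h]; exact (min_le_left _ _).trans (S.K_le i j)
    · rw [min_eq_right h]; exact (min_le_right _ _).trans (I.tri2 i κ j)

/-- value without the opening costs -/
noncomputable def State.R (S : I.State) (p : ℝ) : ℝ :=
  (1 / (I.M:ℝ)) * ∑ i, ((∑ j ∈ I.J i, I.w j * min (I.d i j) (S.K j)) + S.V p i)

noncomputable def State.cost (S : I.State) : ℝ := ∑ j, I.w j * S.K j

lemma M_pos' : (0:ℝ) < I.M := by exact_mod_cast I.M_pos

lemma C_nonneg (j : ι) : 0 ≤ I.C j :=
  mul_nonneg (by positivity) (Finset.sum_nonneg fun i _ => I.d_nonneg i j)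

lemma sum_d (j : ι) : ∑ i ∈ I.N j, I.d i j = (I.N j).card * I.C j := by
  rw [I.card_N j]
  unfold C
  have := I.M_pos'
  field_simp

lemma key_nonneg (i : σ) (j : ι) : 0 ≤ I.key i j := by
  unfold key
  have := I.d_nonneg i j
  have := I.C_nonneg j
  positivity

lemma mem_J {i : σ} {j : ι} : j ∈ I.J i ↔ i ∈ I.N j := by simp [J]

lemma sum_J (i : σ) (g : ι → ℝ) : ∑ j ∈ I.J i, g j = ∑ j, if i ∈ I.N j then g j else 0 := by
  unfold J
  rw [Finset.sum_filter]

lemma State.u_nonneg (S : I.State) (i : σ) (j : ι) : 0 ≤ S.u i j := le_max_right _ _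

lemma State.u_le (S : I.State) (i : σ) (j : ι) : S.u i j ≤ S.F i :=
  max_le (by have := S.K_le i j; linarith) (S.F_nonneg i)

lemma State.u_step_le (S : I.State) (κ i : σ) (j : ι) : (S.step κ).u i j ≤ S.u i j := by
  unfold State.u
  apply max_le_max _ le_rfl
  have : (S.step κ).K j ≤ S.K j := min_le_left _ _
  linarith

lemma State.F_step_le (S : I.State) (κ i : σ) : (S.step κ).F i ≤ S.F i := min_le_left _ _

lemma State.K_step_le (S : I.State) (κ : σ) (j : ι) : (S.step κ).K j ≤ S.K j := min_le_left _ _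

/-- the residual after a hit is `rr` -/
lemma State.u_step (S : I.State) (κ i : σ) (j : ι) :
    (S.step κ).u i j = rr (S.u i j) (I.d i j) (I.d κ j) := by
  unfold State.u rr State.step
  simp only
  rcases le_total (S.K j) (I.d κ j) with h | h
  · rw [min_eq_left h, max_comm 0, min_eq_left]
    exact max_le_max (by linarith) le_rfl
  · rw [min_eq_right h, max_comm 0, min_eq_right]
    exact max_le_max (by linarith) le_rfl

lemma State.V_le_U (S : I.State) (p : ℝ) (i : σ) : S.V p i ≤ S.U i :=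
  VV_le_sum _ _ _ _ _ (S.F_nonneg i) (fun j _ => I.key_nonneg i j) (fun j _ => S.u_le i j)

lemma State.V_ge (S : I.State) (p : ℝ) (i : σ) : min p (S.U i) ≤ S.V p i :=
  VV_ge _ _ _ _ (S.F_nonneg i) (fun j _ => I.w_nonneg j) (fun j _ => I.key_nonneg i j)
    (fun j _ => S.u_nonneg i j) (fun j _ => S.u_le i j)

lemma State.V_nonneg (S : I.State) {p : ℝ} (hp : 0 ≤ p) (i : σ) : 0 ≤ S.V p i :=
  VV_nonneg _ _ _ _ hp (S.F_nonneg i) (fun j _ => I.w_nonneg j) (fun j _ => I.key_nonneg i j)
    (fun j _ => S.u_nonneg i j) (fun j _ => S.u_le i j)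


/-- certificates exist for alive stars -/
theorem State.cert (hR0 : R0Prop) (hL : LProp) (S : I.State) {p : ℝ} (hp : 0 < p) (i : σ)
    (h : S.V p i < S.U i) :
    Nonempty (Cert σ (I.J i) I.w (S.u i) (I.key i) (I.d i) I.C (S.F i) p) :=
  cert_exists hR0 hL (S.F_nonneg i) hp (fun j _ => I.w_nonneg j) (fun j _ => I.d_nonneg i j)
    (fun j _ => I.C_nonneg j) (fun j _ => rfl) (fun j _ => S.u_nonneg i j)
    (fun j _ => S.u_le i j) h

/-- upper bound for the next value through a certificate -/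
lemma State.V_step_le_cert (S : I.State) {p : ℝ} (i κ : σ)
    (c : Cert σ (I.J i) I.w (S.u i) (I.key i) (I.d i) I.C (S.F i) p) :
    (S.step κ).V p i ≤ p * c.Θ ((S.step κ).F i) +
      ∑ j ∈ I.J i, I.w j * cc ((S.step κ).u i j) ((S.step κ).F i) (I.key i j)
        (c.Θ ((S.step κ).F i)) :=
  VV_le _ _ _ _ _ _ (c.Θ_nonneg _) ((c.Θ_le _).trans c.t_le)

/-- the star value does not increase under openings -/
theorem State.V_step_le (hR0 : R0Prop) (hL : LProp) (S : I.State) {p : ℝ} (hp : 0 < p)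
    (i κ : σ) : (S.step κ).V p i ≤ S.V p i := by
  rcases lt_or_ge (S.V p i) (S.U i) with h | h
  · obtain ⟨c⟩ := S.cert hR0 hL hp i h
    refine (S.V_step_le_cert i κ c).trans ?_
    have hval : S.V p i = Vf (I.J i) I.w (S.u i) (I.key i) (S.F i) p c.t := c.val
    rw [hval]
    unfold Vf
    set θ := c.Θ ((S.step κ).F i)
    have h1 : ∑ j ∈ I.J i, I.w j * cc ((S.step κ).u i j) ((S.step κ).F i) (I.key i j) θ ≤
        ∑ j ∈ I.J i, (I.w j * cc (S.u i j) (S.F i) (I.key i j) c.t +
          (c.t - θ) * (I.w j * c.n j)) := by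
      apply Finset.sum_le_sum
      intro j hj
      have := mul_le_mul_of_nonneg_left (c.R j hj ((S.step κ).F i) ((S.step κ).u i j)
        ((S.step κ).F_nonneg i) (S.F_step_le κ i) (S.u_step_le κ i j)
        ((S.step κ).u_le i j)) (I.w_nonneg j)
      linarith
    rw [Finset.sum_add_distrib, ← Finset.mul_sum, c.price] at h1
    linarith
  · refine ((S.step κ).V_le_U p i).trans (le_trans ?_ h)
    exact Finset.sum_le_sum fun j _ => mul_le_mul_of_nonneg_left (S.u_step_le κ i j) (I.w_nonneg j)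

/-- star inequality of an alive star -/
theorem State.star_ineq (hR0 : R0Prop) (hL : LProp) (S : I.State) {p : ℝ} (hp : 0 < p)
    (i : σ) (h : S.V p i < S.U i) (A : Finset σ) :
    p * I.M ≤ (∑ κ ∈ A, (S.V p i - (S.step κ).V p i)) +
      ∑ j ∈ I.J i, I.w j * ((∑ κ ∈ A, if κ ∈ I.N j then (S.step κ).u i j else 0) +
          ((I.N j \ A).card : ℝ) * S.u i j) := by
  obtain ⟨c⟩ := S.cert hR0 hL hp i h
  have hval : S.V p i = Vf (I.J i) I.w (S.u i) (I.key i) (S.F i) p c.t := c.val
  -- per opening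
  have h1 : ∀ κ ∈ A, (∑ j ∈ I.J i, I.w j * (if κ ∈ I.N j then
      c.G j (I.d κ j) - (S.step κ).u i j else 0)) ≤ S.V p i - (S.step κ).V p i := by
    intro κ _
    have h2 := S.V_step_le_cert i κ c
    rw [hval]
    unfold Vf
    set θ := c.Θ ((S.step κ).F i) with hθ
    have h3 : p * (c.t - θ) = ∑ j ∈ I.J i, (c.t - θ) * (I.w j * c.n j) := by
      rw [← Finset.mul_sum, c.price]; ring
    have h4 : (∑ j ∈ I.J i, I.w j * (if κ ∈ I.N j then
      c.G j (I.d κ j) - (S.step κ).u i j else 0)) ≤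
        ∑ j ∈ I.J i, ((c.t - θ) * (I.w j * c.n j)
          + I.w j * cc (S.u i j) (S.F i) (I.key i j) c.t
          - I.w j * cc ((S.step κ).u i j) ((S.step κ).F i) (I.key i j) θ) := by
      apply Finset.sum_le_sum
      intro j hj
      have hrw : (c.t - θ) * (I.w j * c.n j) + I.w j * cc (S.u i j) (S.F i) (I.key i j) c.t
          - I.w j * cc ((S.step κ).u i j) ((S.step κ).F i) (I.key i j) θ =
          I.w j * ((c.t - θ) * c.n j + cc (S.u i j) (S.F i) (I.key i j) c.t
          - cc ((S.step κ).u i j) ((S.step κ).F i) (I.key i j) θ) := by ring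
      rw [hrw]
      apply mul_le_mul_of_nonneg_left _ (I.w_nonneg j)
      split_ifs with hk
      · have hF : (S.step κ).F i ≤ I.d i j + I.d κ j :=
          (min_le_right _ _).trans (I.tri1 i κ j)
        have := c.G_alive j hj (I.d κ j) ((S.step κ).F i) ((S.step κ).F_nonneg i)
          (S.F_step_le κ i) hF (by rw [← S.u_step κ i j]; exact (S.step κ).u_le i j)
        rw [← S.u_step κ i j] at this
        linarith
      · have := c.R j hj ((S.step κ).F i) ((S.step κ).u i j)
          ((S.step κ).F_nonneg i) (S.F_step_le κ i) (S.u_step_le κ i j) ((S.step κ).u_le i j)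
        linarith
    rw [Finset.sum_sub_distrib, Finset.sum_add_distrib, ← h3] at h4
    linarith
  have h5 : p * I.M ≤ ∑ j ∈ I.J i, I.w j * ∑ κ ∈ I.N j, c.G j (I.d κ j) := by
    have hpm : p * I.M = ∑ j ∈ I.J i, I.w j * c.n j * I.M := by
      rw [← Finset.sum_mul, c.price]
    rw [hpm]
    apply Finset.sum_le_sum
    intro j hj
    have h6 := c.G_avg j hj (I.N j) (fun κ => I.d κ j) (fun κ _ => I.d_nonneg κ j) (I.sum_d j)
    rw [I.card_N j] at h6
    have := mul_le_mul_of_nonneg_left h6 (I.w_nonneg j)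
    linarith
  refine h5.trans ?_
  have h7 : ∑ j ∈ I.J i, I.w j * ∑ κ ∈ I.N j, c.G j (I.d κ j) ≤
      ∑ j ∈ I.J i, ((∑ κ ∈ A, I.w j * (if κ ∈ I.N j then
        c.G j (I.d κ j) - (S.step κ).u i j else 0)) +
        I.w j * ((∑ κ ∈ A, if κ ∈ I.N j then (S.step κ).u i j else 0) +
          ((I.N j \ A).card : ℝ) * S.u i j)) := by
    apply Finset.sum_le_sum
    intro j hj
    rw [← Finset.mul_sum, ← mul_add]
    apply mul_le_mul_of_nonneg_left _ (I.w_nonneg j)
    rw [← add_assoc, ← Finset.sum_add_distrib]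
    have h8 : ∑ κ ∈ I.N j, c.G j (I.d κ j) =
        (∑ κ ∈ A, if κ ∈ I.N j then c.G j (I.d κ j) else 0) +
        ∑ κ ∈ I.N j \ A, c.G j (I.d κ j) := by
      rw [← Finset.sum_filter]
      have : A.filter (fun κ => κ ∈ I.N j) = I.N j ∩ A := by
        ext x; simp [and_comm]
      rw [this, ← Finset.sum_inter_add_sum_sdiff (I.N j) A]
    rw [h8]
    apply add_le_add
    · apply le_of_eq
      apply Finset.sum_congr rfl
      intro κ _
      split_ifs <;> ring
    · have : ∑ κ ∈ I.N j \ A, c.G j (I.d κ j) ≤ ∑ κ ∈ I.N j \ A, S.u i j :=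
        Finset.sum_le_sum fun κ _ => c.G_dead j hj _
      rwa [Finset.sum_const, nsmul_eq_mul] at this
  refine h7.trans ?_
  rw [Finset.sum_add_distrib]
  apply add_le_add _ le_rfl
  rw [Finset.sum_comm]
  exact Finset.sum_le_sum h1

lemma State.R_eq (S : I.State) (p n : ℝ) :
    p * n + S.R p = Phi I.d I.w I.N I.M p n S.K (S.V p) := by
  unfold State.R Phi
  congr 2
  apply Finset.sum_congr rfl
  intro i _
  rw [sum_J]

lemma State.U_eq (S : I.State) (i : σ) : S.U i = uval I.d I.w I.N S.K i := by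
  unfold State.U uval
  rw [sum_J]
  rfl

/-- copies alive at price `p` -/
noncomputable def State.alive (S : I.State) (p : ℝ) : Finset σ := by
  classical exact Finset.univ.filter fun i => S.V p i < S.U i

lemma State.mem_alive {S : I.State} {p : ℝ} {i : σ} : i ∈ S.alive p ↔ S.V p i < S.U i := by
  classical
  unfold State.alive
  simp

/-- **Mixed descent** (606's MD): `A` contains all copies alive at price `p`. -/
theorem State.mixed (hR0 : R0Prop) (hL : LProp) (S : I.State) {p : ℝ} (hp : 0 < p)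
    (A : Finset σ) (hA : S.alive p ⊆ A) :
    ∑ κ ∈ A, (p + (S.step κ).R p - S.R p) ≤ ∑ i ∈ A \ S.alive p, (p - S.U i) := by
  classical
  have hM : (0:ℝ) < I.M := I.M_pos'
  have hex := exchange_superset I.d I.w I.w_nonneg I.N I.M p hM
    (fun j => by exact_mod_cast I.card_N j) 0 S.K (S.V p)
    (fun κ i => (S.step κ).V p i) A (S.alive p) hA ?_ ?_ ?_
  · have h1 : ∀ κ, Phi I.d I.w I.N I.M p (0 + 1) (fun j => min (S.K j) (I.d κ j))
        (fun i => (S.step κ).V p i) = p + (S.step κ).R p := by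
      intro κ
      have := (S.step κ).R_eq p (0 + 1)
      rw [zero_add, mul_one] at this
      rw [this, zero_add]
      rfl
    have h2 : Phi I.d I.w I.N I.M p 0 S.K (S.V p) = S.R p := by
      have h3 := S.R_eq p 0
      rw [mul_zero, zero_add] at h3
      exact h3.symm
    rw [h2, Finset.sum_congr rfl fun κ _ => by rw [h1 κ]] at hex
    refine hex.trans (le_of_eq ?_)
    apply Finset.sum_congr rfl
    intro i _
    rw [S.U_eq]
  · intro i hi
    rw [← S.U_eq]
    by_contra hc
    push Not at hc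
    exact hi (State.mem_alive.mpr hc)
  · intro i _ κ _
    have h1 := (S.step κ).V_le_U p i
    rw [(S.step κ).U_eq i] at h1
    exact h1
  · intro i hi
    have hconv : (∑ j, if i ∈ I.N j then
        I.w j * ((∑ κ ∈ A, if κ ∈ I.N j then max (min (I.d κ j) (S.K j) - I.d i j) 0 else 0) +
          ((I.N j \ A).card : ℝ) * max (S.K j - I.d i j) 0) else 0) =
        ∑ j ∈ I.J i, I.w j * ((∑ κ ∈ A, if κ ∈ I.N j then (S.step κ).u i j else 0) +
          ((I.N j \ A).card : ℝ) * S.u i j) := by
      rw [sum_J]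
      apply Finset.sum_congr rfl
      intro j _
      congr 2
      congr 1
      apply Finset.sum_congr rfl
      intro κ _
      rw [min_comm]
      rfl
    rw [hconv]
    exact S.star_ineq hR0 hL hp i (State.mem_alive.mp hi) A

/-! ## The facts used by the global argument -/

lemma State.alive_anti (S : I.State) {p q : ℝ} (h : p ≤ q) : S.alive q ⊆ S.alive p := by
  intro i hi
  rw [State.mem_alive] at *
  exact (VV_mono_p _ _ _ _ _ h).trans_lt hi

lemma State.alive_lt (S : I.State) {p : ℝ} {i : σ} (hi : i ∈ S.alive p) : p < S.U i := by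
  rw [State.mem_alive] at hi
  by_contra h
  push Not at h
  have := S.V_ge p i
  rw [min_eq_right h] at this
  linarith

/-- **(\*)**: opening the copies alive at the lower price `μ` costs only the price difference -/
theorem State.star (hR0 : R0Prop) (hL : LProp) (S : I.State) {μ p : ℝ} (hμp : μ ≤ p)
    (hp : 0 < p) :
    ∑ κ ∈ S.alive μ, (p + (S.step κ).R p - S.R p) ≤ (p - μ) * (S.alive μ).card := by
  refine (S.mixed hR0 hL hp (S.alive μ) (S.alive_anti hμp)).trans ?_
  refine (Finset.sum_le_sum (g := fun _ => p - μ) fun i hi => ?_).trans ?_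
  · have := S.alive_lt (Finset.mem_sdiff.mp hi).1
    linarith
  · rw [Finset.sum_const, nsmul_eq_mul, mul_comm]
    apply mul_le_mul_of_nonneg_left _ (by linarith)
    exact_mod_cast Finset.card_le_card Finset.sdiff_subset

lemma State.R_nonneg (S : I.State) {p : ℝ} (hp : 0 ≤ p) : 0 ≤ S.R p := by
  unfold State.R
  apply mul_nonneg (by positivity)
  apply Finset.sum_nonneg
  intro i _
  apply add_nonneg _ (S.V_nonneg hp i)
  exact Finset.sum_nonneg fun j _ => mul_nonneg (I.w_nonneg j)
    (le_min (I.d_nonneg i j) (S.K_nonneg j))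



lemma State.R_concave (S : I.State) (p q a b : ℝ) (ha : 0 ≤ a) (hb : 0 ≤ b) (hab : a + b = 1) :
    a * S.R p + b * S.R q ≤ S.R (a * p + b * q) := by
  unfold State.R
  have h : a * (∑ i, ((∑ j ∈ I.J i, I.w j * min (I.d i j) (S.K j)) + S.V p i)) +
      b * (∑ i, ((∑ j ∈ I.J i, I.w j * min (I.d i j) (S.K j)) + S.V q i)) ≤
      ∑ i, ((∑ j ∈ I.J i, I.w j * min (I.d i j) (S.K j)) + S.V (a * p + b * q) i) := by
    rw [Finset.mul_sum, Finset.mul_sum, ← Finset.sum_add_distrib]
    apply Finset.sum_le_sum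
    intro i _
    have h1 : a * S.V p i + b * S.V q i ≤ S.V (a * p + b * q) i :=
      VV_concave_p _ _ _ _ _ p q a b ha hb hab
    generalize (∑ j ∈ I.J i, I.w j * min (I.d i j) (S.K j)) = X
    have : X = a * X + b * X := by rw [← add_mul, hab, one_mul]
    linarith
  have h2 := mul_le_mul_of_nonneg_left h (show 0 ≤ 1 / (I.M:ℝ) by positivity)
  refine le_trans (le_of_eq ?_) h2
  ring

theorem State.R_step_le (hR0 : R0Prop) (hL : LProp) (S : I.State) {p : ℝ} (hp : 0 < p) (κ : σ) :
    (S.step κ).R p ≤ S.R p := by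
  unfold State.R
  apply mul_le_mul_of_nonneg_left _ (by positivity)
  apply Finset.sum_le_sum
  intro i _
  apply add_le_add _ (S.V_step_le hR0 hL hp i κ)
  apply Finset.sum_le_sum
  intro j _
  exact mul_le_mul_of_nonneg_left (min_le_min le_rfl (S.K_step_le κ j)) (I.w_nonneg j)

/-- double counting: sum over stars = sum over clients of the neighbourhood sums -/
lemma sum_star_comm (g : σ → ι → ℝ) : ∑ i, ∑ j ∈ I.J i, g i j = ∑ j, ∑ i ∈ I.N j, g i j := by
  have h1 : ∀ i, ∑ j ∈ I.J i, g i j = ∑ j, if i ∈ I.N j then g i j else 0 := fun i => I.sum_J i _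
  rw [Finset.sum_congr rfl fun i _ => h1 i, Finset.sum_comm]
  apply Finset.sum_congr rfl
  intro j _
  rw [← Finset.sum_filter]
  congr 1
  ext i; simp

/-- value of a state without alive copies -/
theorem State.R_dead (S : I.State) {p : ℝ} (h : S.alive p = ∅) : S.R p = S.cost := by
  have hV : ∀ i, S.V p i = S.U i := by
    intro i
    apply le_antisymm (S.V_le_U p i)
    by_contra hc
    push Not at hc
    have : i ∈ S.alive p := State.mem_alive.mpr hc
    rw [h] at this
    simp at this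
  unfold State.R State.cost
  have h1 : ∑ i, ((∑ j ∈ I.J i, I.w j * min (I.d i j) (S.K j)) + S.V p i) =
      ∑ i, ∑ j ∈ I.J i, I.w j * S.K j := by
    apply Finset.sum_congr rfl
    intro i _
    rw [hV i]
    unfold State.U
    rw [← Finset.sum_add_distrib]
    apply Finset.sum_congr rfl
    intro j _
    rw [← mul_add]
    congr 1
    unfold State.u
    rcases le_total (S.K j) (I.d i j) with h2 | h2
    · rw [min_eq_right h2, max_eq_right (by linarith)]; ring
    · rw [min_eq_left h2, max_eq_left (by linarith)]; ring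
  rw [h1, sum_star_comm (fun i j => I.w j * S.K j), Finset.mul_sum]
  apply Finset.sum_congr rfl
  intro j _
  rw [Finset.sum_const, nsmul_eq_mul, I.card_N j]
  have := I.M_pos'
  field_simp

/-- general upper bound: `R p ≤ p * mass + (1+2/e) * Σ w C` in every state -/
theorem State.R_le (S : I.State) (p : ℝ) :
    S.R p ≤ p * (Fintype.card σ / I.M) + (1 + 2 * ee) * ∑ j, I.w j * I.C j := by
  have he := ee_pos
  have hM := I.M_pos'
  have h1 : ∀ i, ((∑ j ∈ I.J i, I.w j * min (I.d i j) (S.K j)) + S.V p i) ≤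
      (∑ j ∈ I.J i, I.w j * (I.d i j + ee * I.key i j)) + p := by
    intro i
    have h2 : S.V p i ≤ p + ∑ j ∈ I.J i, I.w j * (ee * I.key i j) := by
      refine (VV_le _ _ _ _ _ _ zero_le_one le_rfl).trans ?_
      unfold Vf
      rw [mul_one]
      apply add_le_add le_rfl
      apply Finset.sum_le_sum
      intro j _
      apply mul_le_mul_of_nonneg_left _ (I.w_nonneg j)
      rw [cc_one (I.key_nonneg i j) (S.F_nonneg i) (S.u_le i j)]
      exact (min_le_right _ _).trans (mul_le_mul_of_nonneg_left (min_le_right _ _) he.le)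
    have h3 : ∑ j ∈ I.J i, I.w j * min (I.d i j) (S.K j) ≤ ∑ j ∈ I.J i, I.w j * I.d i j :=
      Finset.sum_le_sum fun j _ => mul_le_mul_of_nonneg_left (min_le_left _ _) (I.w_nonneg j)
    have h4 : ∑ j ∈ I.J i, I.w j * (I.d i j + ee * I.key i j) =
        ∑ j ∈ I.J i, I.w j * I.d i j + ∑ j ∈ I.J i, I.w j * (ee * I.key i j) := by
      rw [← Finset.sum_add_distrib]
      apply Finset.sum_congr rfl
      intro j _; ring
    rw [h4]; linarith
  unfold State.R
  refine (mul_le_mul_of_nonneg_left (Finset.sum_le_sum fun i _ => h1 i)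
    (show 0 ≤ 1 / (I.M:ℝ) by positivity)).trans ?_
  rw [Finset.sum_add_distrib, sum_star_comm (fun i j => I.w j * (I.d i j + ee * I.key i j)),
    Finset.sum_const, nsmul_eq_mul, Finset.card_univ, mul_add, add_comm]
  apply add_le_add
  · apply le_of_eq; ring
  · rw [Finset.mul_sum, Finset.mul_sum]
    apply Finset.sum_le_sum
    intro j _
    rw [← Finset.mul_sum, Finset.sum_add_distrib, ← Finset.mul_sum]
    have hk : ∑ i ∈ I.N j, I.key i j = 2 * (I.M * I.C j) := by
      unfold key
      rw [← Finset.sum_div, Finset.sum_add_distrib, ← Finset.mul_sum, I.sum_d j,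
        Finset.sum_const, nsmul_eq_mul, I.card_N j]
      ring
    rw [hk, I.sum_d j, I.card_N j]
    apply le_of_eq
    field_simp

/-- the initial state: everything at distance `B` -/
noncomputable def start (I : FracInst ι σ) (B : ℝ) (hB : 0 ≤ B) : I.State where
  K := fun _ => B
  F := fun _ => B
  K_nonneg := fun _ => hB
  F_nonneg := fun _ => hB
  K_le := fun i j => by have := I.d_nonneg i j; linarith


end FracInst

end Crest.Agent.KM
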